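import Vale.Agent.P340.Main
import Vale.Agent.P340.SimpleLevel
import Vale.Agent.P340.LevelCps

/-!
# Weak normalisation implies strong normalisation for generalised non-dependent systems
-/

namespace Vale.Agent.Results.P340.GenNonDependentBGK

open Vale.Agent.P340

/-- Every weakly normalizing, functional, generalised non-dependent specification is strongly
normalizing. -/
theorem result : ∀ (S : Type) [PartialOrder S] (P : Spec S),
    GenNonDependent P → WeaklyNormalizing P → StronglyNormalizing P := by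
  intro S _ P hP hW
  exact sn_of_level_lemmas
    (fun Q hQ Γ M i hΓ hno h => sn_of_no_rule hQ hno hΓ h)
    (fun Q hQ hWQ Γ M i hΓ hs h => sn_of_simple hQ hWQ hs hΓ h)
    (fun Q hQ hWQ Γ M i t hΓ hfin hii hax hti h => sn_of_cps hQ hWQ hΓ hfin hii hax hti h)
    hP hW

/-- Non-dependent tiered systems, with any choice of rules, are in the class. -/
theorem tiered_mem {n : ℕ} {P : Spec (Fin n)}
    (hax : ∀ s t, P.ax s t ↔ (t : ℕ) = s + 1)
    (hrule : ∀ s₁ s₂ s₃, P.rule s₁ s₂ s₃ → s₃ = s₂ ∧ s₂ ≤ s₁) : GenNonDependent P where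
  ax_fun h h' := Fin.ext (((hax _ _).1 h).trans ((hax _ _).1 h').symm)
  ax_lt h := Fin.lt_def.2 (by have := (hax _ _).1 h; omega)
  rule_eq h := (hrule _ _ _ h).1
  rule_le h := (hrule _ _ _ h).2
  rule_mono {s₁ s₂ s₃ t₁} h h₁ := by
    have hle := Fin.le_def.1 (hrule _ _ _ h).2
    have ht := (hax _ _).1 h₁
    have hlt : (s₂ : ℕ) + 1 < n := by have := t₁.isLt; omega
    exact ⟨⟨s₂ + 1, hlt⟩, (hax _ _).2 rfl, Fin.le_def.2 (by simp; omega)⟩

end Vale.Agent.Results.P340.GenNonDependentBGK
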