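import Vale.Agent.P340.CpsMain

/-!
# Weak normalisation implies strong normalisation for persistent systems with a condition on kinds
-/

namespace Vale.Agent.Results.P340.PersistentKindBGK

open Vale.Agent.P340

/-- Every weakly normalizing specification with functional axioms, rules of the shape
`(s₁, s₂, s₂)` and the condition on kinds is strongly normalizing. -/
theorem result : ∀ (S : Type) (P : Spec S),
    PairSpec P → KindCond P → WeaklyNormalizing P → StronglyNormalizing P :=
  fun _ _ hP hK hW => stronglyNormalizing_of_kindCond hP hK hW

/-- Full impredicativity of every kind suffices for the condition, whatever the other rules. -/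
theorem kindCond_of_poly {S : Type} {P : Spec S}
    (h : ∀ z a t, P.ax z a → P.ax a t → P.rule t a a) : KindCond P :=
  fun z a t hz ha => .inl (h z a t hz ha)

/-- Three tiers: the middle sort is polymorphic over itself, or the top sort binds nothing that
the middle one does not. -/
theorem kindCond_three_tiers {P : Spec (Fin 3)}
    (hax : ∀ s t, P.ax s t ↔ (t : ℕ) = s + 1)
    (h : P.rule 2 1 1 ∨ ∀ b, P.rule 2 b b → P.rule 1 b b) : KindCond P := by
  intro z a t hz ha
  have h1 := (hax _ _).1 hz
  have h2 := (hax _ _).1 ha
  have e1 : a = 1 := Fin.ext (by have := t.isLt; simp; omega)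
  have e2 : t = 2 := Fin.ext (by have := t.isLt; simp; omega)
  subst e1 e2
  rcases h with h | h
  · exact .inl h
  · exact .inr ⟨fun b _ => h b, fun u hu => absurd ((hax _ _).1 hu) (by have := u.isLt; simp; omega)⟩

end Vale.Agent.Results.P340.PersistentKindBGK
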